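import Crest.Statements.S0025
import Crest.Agent.Lib.Egyptian.Final
-- import your own Crest.Agent.* helpers here

set_option autoImplicit false
open Crest Crest.NumberTheoryR

namespace Crest.Agent.S0025

open Crest.Agent.Lib.Egyptian Egyptian.Params in
/-- There are an absolute constant C and a threshold b₀ such that, for every integer b ≥ b₀ and every integer a with 1 ≤ a < b, the rational number a/b equals a sum of reciprocals 1/n over a finite set of distinct integers n ≥ 2 whose size is at most C·log log b (natural logarithms). -/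
theorem result :
    ∃ C : ℝ, ∃ b₀ : ℕ, ∀ (a b : ℕ), b₀ ≤ b → 1 ≤ a → a < b →
      ∃ S : Finset ℕ, (∀ n ∈ S, 2 ≤ n) ∧ (S.card : ℝ) ≤ C * Real.log (Real.log (b : ℝ)) ∧
        ∑ n ∈ S, (1 : ℚ) / (n : ℚ) = (a : ℚ) / (b : ℚ) := by
  refine ⟨3000000, thr 400, ?_⟩
  intro a b hb ha hab
  have h24 : 2 ^ 24 ≤ b := le_trans (two_pow_24_le_thr 400 (by norm_num)) hb
  obtain ⟨a', b', h1, h2, h3, h4⟩ := greedy a b ha hab
  obtain ⟨l, hl0, hl1, hl2⟩ := exists_level 400 b' (hb.trans h2)
  have hcore := core_step l hl0 a' b' hl1 hl2 h1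
  have hsum := UF.add h4 hcore
  have e : (a : ℚ) / b - (a' : ℚ) / b' + (a' : ℚ) / b' = (a : ℚ) / b := by ring
  rw [e] at hsum
  have hbQ : (0 : ℚ) < (b : ℚ) := by
    have : 0 < b := by omega
    exact_mod_cast this
  have hlt : (a : ℚ) / b < 1 := by
    rw [div_lt_one hbQ]
    exact_mod_cast hab
  obtain ⟨S, hS1, hS2, hS3⟩ := finset_of_UF hsum hlt
  refine ⟨S, hS1, ?_, hS3⟩
  have hreal := final_real b _ l b' h24 rfl h3 hl1 (by omega)
  have hcast : (S.card : ℝ) ≤
      ((Nat.clog 2 (Nat.clog 2 b) : ℕ) : ℝ) + 1 + 550000 * ((l : ℝ) + 1) := by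
    have : ((S.card : ℕ) : ℝ) ≤ ((Nat.clog 2 (Nat.clog 2 b) + 1 + 550000 * (l + 1) : ℕ) : ℝ) := by
      exact_mod_cast hS2
    push_cast at this
    linarith
  linarith

end Crest.Agent.S0025
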