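import Crest.Statements.S0244
import Crest.Agent.Lib.PottsTree.Glue244
import Crest.Agent.Lib.PottsTree.Lat3.CoverG
import Crest.Agent.Lib.PottsTree.Lat3.R4
import Crest.Agent.Lib.PottsTree.Lat3.R5
import Crest.Agent.Lib.PottsTree.Lat3.R6
import Crest.Agent.Lib.PottsTree.Lat3.R7
import Crest.Agent.Lib.PottsTree.Lat3.R8
import Crest.Agent.Lib.PottsTree.Lat3.R9
import Crest.Agent.Lib.PottsTree.Lat3.R10
import Crest.Agent.Lib.PottsTree.Lat3.R11
import Crest.Agent.Lib.PottsTree.Lat3.R12
import Crest.Agent.Lib.PottsTree.Lat3.R13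
import Crest.Agent.Lib.PottsTree.Lat3.R14
import Crest.Agent.Lib.PottsTree.Lat3.R15
import Crest.Agent.Lib.PottsTree.Lat3.R16
import Crest.Agent.Lib.PottsTree.Lat3.R17
import Crest.Agent.Lib.PottsTree.Lat3.R18
import Crest.Agent.Lib.PottsTree.Lat3.R19
import Crest.Agent.Lib.PottsTree.Lat3.R20
import Crest.Agent.Lib.PottsTree.Lat3.R21
import Crest.Agent.Lib.PottsTree.Lat3.R22
import Crest.Agent.Lib.PottsTree.Lat3.R23
import Crest.Agent.Lib.PottsTree.Lat3.R24
import Crest.Agent.Lib.PottsTree.Lat3.R25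
import Crest.Agent.Lib.PottsTree.Lat3.R26
import Crest.Agent.Lib.PottsTree.Lat3.R27
import Crest.Agent.Lib.PottsTree.Lat3.R28
import Crest.Agent.Lib.PottsTree.Lat3.R29
import Crest.Agent.Lib.PottsTree.Lat3.R30
import Crest.Agent.Lib.PottsTree.Lat3.R31
import Crest.Agent.Lib.PottsTree.Lat3.R32
import Crest.Agent.Lib.PottsTree.Lat3.R33
import Crest.Agent.Lib.PottsTree.Lat3.R34
import Crest.Agent.Lib.PottsTree.Lat3.D4068_1000
import Crest.Agent.Lib.PottsTree.Lat3.D4137_1000
import Crest.Agent.Lib.PottsTree.Lat3.D4207_1000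
import Crest.Agent.Lib.PottsTree.Lat3.D4279_1000
import Crest.Agent.Lib.PottsTree.Lat3.D4352_1000
import Crest.Agent.Lib.PottsTree.Lat3.D4439_1000
import Crest.Agent.Lib.PottsTree.Lat3.D4528_1000
import Crest.Agent.Lib.PottsTree.Lat3.D4619_1000
import Crest.Agent.Lib.PottsTree.Lat3.D4711_1000
import Crest.Agent.Lib.PottsTree.Lat3.D4805_1000
import Crest.Agent.Lib.PottsTree.Lat3.D4901_1000
import Crest.Agent.Lib.PottsTree.Lat3.D4999_1000
import Crest.Agent.Lib.PottsTree.Lat3.D5099_1000
import Crest.Agent.Lib.PottsTree.Lat3.D5201_1000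
import Crest.Agent.Lib.PottsTree.Lat3.D5305_1000
import Crest.Agent.Lib.PottsTree.Lat3.D5411_1000
import Crest.Agent.Lib.PottsTree.Lat3.D5530_1000
import Crest.Agent.Lib.PottsTree.Lat3.D5652_1000
import Crest.Agent.Lib.PottsTree.Lat3.D5776_1000
import Crest.Agent.Lib.PottsTree.Lat3.D5903_1000
import Crest.Agent.Lib.PottsTree.Lat3.D6033_1000
import Crest.Agent.Lib.PottsTree.Lat3.D6166_1000
import Crest.Agent.Lib.PottsTree.Lat3.D6302_1000
import Crest.Agent.Lib.PottsTree.Lat3.D6441_1000
import Crest.Agent.Lib.PottsTree.Lat3.D6583_1000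
import Crest.Agent.Lib.PottsTree.Lat3.D6761_1000
import Crest.Agent.Lib.PottsTree.Lat3.D6944_1000
import Crest.Agent.Lib.PottsTree.Lat3.D7131_1000
import Crest.Agent.Lib.PottsTree.Lat3.D7324_1000
import Crest.Agent.Lib.PottsTree.Lat3.D7544_1000
import Crest.Agent.Lib.PottsTree.Lat3.D7770_1000
import Crest.Agent.Lib.PottsTree.Lat3.D8003_1000
import Crest.Agent.Lib.PottsTree.Lat3.D8243_1000
import Crest.Agent.Lib.PottsTree.Lat3.D8490_1000
import Crest.Agent.Lib.PottsTree.Lat3.D8745_1000
import Crest.Agent.Lib.PottsTree.Lat3.D9007_1000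
import Crest.Agent.Lib.PottsTree.Lat3.D9277_1000
import Crest.Agent.Lib.PottsTree.Lat3.D9555_1000
import Crest.Agent.Lib.PottsTree.Lat3.D9937_1000
import Crest.Agent.Lib.PottsTree.Lat3.D10334_1000
import Crest.Agent.Lib.PottsTree.Lat3.D10747_1000
import Crest.Agent.Lib.PottsTree.Lat3.D11284_1000
import Crest.Agent.Lib.PottsTree.Lat3.D11848_1000
import Crest.Agent.Lib.PottsTree.Lat3.D12440_1000
import Crest.Agent.Lib.PottsTree.Lat3.D13062_1000
import Crest.Agent.Lib.PottsTree.Lat3.D13715_1000
import Crest.Agent.Lib.PottsTree.Lat3.D14401_1000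
import Crest.Agent.Lib.PottsTree.Lat3.D15121_1000
import Crest.Agent.Lib.PottsTree.Lat3.D16028_1000
import Crest.Agent.Lib.PottsTree.Lat3.D16990_1000
import Crest.Agent.Lib.PottsTree.Lat3.D18009_1000
import Crest.Agent.Lib.PottsTree.Lat3.D19090_1000
import Crest.Agent.Lib.PottsTree.Lat3.D20617_1000
import Crest.Agent.Lib.PottsTree.Lat3.D22266_1000
import Crest.Agent.Lib.PottsTree.Lat3.D24047_1000
import Crest.Agent.Lib.PottsTree.Lat3.D25971_1000
import Crest.Agent.Lib.PottsTree.Lat3.D28049_1000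
import Crest.Agent.Lib.PottsTree.Lat3.D30293_1000
import Crest.Agent.Lib.PottsTree.Lat3.D32716_1000
import Crest.Agent.Lib.PottsTree.Lat3.D34300_1000

set_option autoImplicit false
open Crest Crest.ProbabilityR

namespace Crest.Agent.S0244

/-- Three-valued spins spread from a uniform root down a tree, each child keeping its parent's spin with probability `λ` (-1/2 ≤ λ ≤ 1), else drawing a fresh uniform spin. If `d λ² ≤ 1`, the expected total variation distance between the conditional law of the root given the depth-`ℓ` spins and the uniform law tends to `0` as `ℓ → ∞`: on the `d`-ary tree for integer `d ≥ 2`, and on a Poisson(`d`) Galton–Watson tree seen to depth `ℓ`, averaged without conditioning on survival, for real `d > 1`. -/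
theorem result :
    (∀ b : ℕ, 2 ≤ b → ∀ lam : ℝ, -(1 / 2 : ℝ) ≤ lam → lam ≤ 1 → (b : ℝ) * lam ^ 2 ≤ 1 →
      Filter.Tendsto (Crest.ProbabilityR.Broadcast.advantage 3 b lam) Filter.atTop (nhds 0)) ∧
    (∀ d : ℝ, 1 < d → ∀ lam : ℝ, -(1 / 2 : ℝ) ≤ lam → lam ≤ 1 → d * lam ^ 2 ≤ 1 →
      Filter.Tendsto (Crest.ProbabilityR.Broadcast.gwAdvantage 3 lam d) Filter.atTop (nhds 0)) :=
  Crest.Agent.PottsTree.s0244_of_target
    (Crest.Agent.PottsTree.CertQ3.T48.Cover.target244_of_runs
      Crest.Agent.PottsTree.Lat3.R4.final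
      Crest.Agent.PottsTree.Lat3.R5.final
      Crest.Agent.PottsTree.Lat3.R6.final
      Crest.Agent.PottsTree.Lat3.R7.final
      Crest.Agent.PottsTree.Lat3.R8.final
      Crest.Agent.PottsTree.Lat3.R9.final
      Crest.Agent.PottsTree.Lat3.R10.final
      Crest.Agent.PottsTree.Lat3.R11.final
      Crest.Agent.PottsTree.Lat3.R12.final
      Crest.Agent.PottsTree.Lat3.R13.final
      Crest.Agent.PottsTree.Lat3.R14.final
      Crest.Agent.PottsTree.Lat3.R15.final
      Crest.Agent.PottsTree.Lat3.R16.final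
      Crest.Agent.PottsTree.Lat3.R17.final
      Crest.Agent.PottsTree.Lat3.R18.final
      Crest.Agent.PottsTree.Lat3.R19.final
      Crest.Agent.PottsTree.Lat3.R20.final
      Crest.Agent.PottsTree.Lat3.R21.final
      Crest.Agent.PottsTree.Lat3.R22.final
      Crest.Agent.PottsTree.Lat3.R23.final
      Crest.Agent.PottsTree.Lat3.R24.final
      Crest.Agent.PottsTree.Lat3.R25.final
      Crest.Agent.PottsTree.Lat3.R26.final
      Crest.Agent.PottsTree.Lat3.R27.final
      Crest.Agent.PottsTree.Lat3.R28.final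
      Crest.Agent.PottsTree.Lat3.R29.final
      Crest.Agent.PottsTree.Lat3.R30.final
      Crest.Agent.PottsTree.Lat3.R31.final
      Crest.Agent.PottsTree.Lat3.R32.final
      Crest.Agent.PottsTree.Lat3.R33.final
      Crest.Agent.PottsTree.Lat3.R34.final
      Crest.Agent.PottsTree.Lat3.D4068_1000.final
      Crest.Agent.PottsTree.Lat3.D4137_1000.final
      Crest.Agent.PottsTree.Lat3.D4207_1000.final
      Crest.Agent.PottsTree.Lat3.D4279_1000.final
      Crest.Agent.PottsTree.Lat3.D4352_1000.final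
      Crest.Agent.PottsTree.Lat3.D4439_1000.final
      Crest.Agent.PottsTree.Lat3.D4528_1000.final
      Crest.Agent.PottsTree.Lat3.D4619_1000.final
      Crest.Agent.PottsTree.Lat3.D4711_1000.final
      Crest.Agent.PottsTree.Lat3.D4805_1000.final
      Crest.Agent.PottsTree.Lat3.D4901_1000.final
      Crest.Agent.PottsTree.Lat3.D4999_1000.final
      Crest.Agent.PottsTree.Lat3.D5099_1000.final
      Crest.Agent.PottsTree.Lat3.D5201_1000.final
      Crest.Agent.PottsTree.Lat3.D5305_1000.final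
      Crest.Agent.PottsTree.Lat3.D5411_1000.final
      Crest.Agent.PottsTree.Lat3.D5530_1000.final
      Crest.Agent.PottsTree.Lat3.D5652_1000.final
      Crest.Agent.PottsTree.Lat3.D5776_1000.final
      Crest.Agent.PottsTree.Lat3.D5903_1000.final
      Crest.Agent.PottsTree.Lat3.D6033_1000.final
      Crest.Agent.PottsTree.Lat3.D6166_1000.final
      Crest.Agent.PottsTree.Lat3.D6302_1000.final
      Crest.Agent.PottsTree.Lat3.D6441_1000.final
      Crest.Agent.PottsTree.Lat3.D6583_1000.final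
      Crest.Agent.PottsTree.Lat3.D6761_1000.final
      Crest.Agent.PottsTree.Lat3.D6944_1000.final
      Crest.Agent.PottsTree.Lat3.D7131_1000.final
      Crest.Agent.PottsTree.Lat3.D7324_1000.final
      Crest.Agent.PottsTree.Lat3.D7544_1000.final
      Crest.Agent.PottsTree.Lat3.D7770_1000.final
      Crest.Agent.PottsTree.Lat3.D8003_1000.final
      Crest.Agent.PottsTree.Lat3.D8243_1000.final
      Crest.Agent.PottsTree.Lat3.D8490_1000.final
      Crest.Agent.PottsTree.Lat3.D8745_1000.final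
      Crest.Agent.PottsTree.Lat3.D9007_1000.final
      Crest.Agent.PottsTree.Lat3.D9277_1000.final
      Crest.Agent.PottsTree.Lat3.D9555_1000.final
      Crest.Agent.PottsTree.Lat3.D9937_1000.final
      Crest.Agent.PottsTree.Lat3.D10334_1000.final
      Crest.Agent.PottsTree.Lat3.D10747_1000.final
      Crest.Agent.PottsTree.Lat3.D11284_1000.final
      Crest.Agent.PottsTree.Lat3.D11848_1000.final
      Crest.Agent.PottsTree.Lat3.D12440_1000.final
      Crest.Agent.PottsTree.Lat3.D13062_1000.final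
      Crest.Agent.PottsTree.Lat3.D13715_1000.final
      Crest.Agent.PottsTree.Lat3.D14401_1000.final
      Crest.Agent.PottsTree.Lat3.D15121_1000.final
      Crest.Agent.PottsTree.Lat3.D16028_1000.final
      Crest.Agent.PottsTree.Lat3.D16990_1000.final
      Crest.Agent.PottsTree.Lat3.D18009_1000.final
      Crest.Agent.PottsTree.Lat3.D19090_1000.final
      Crest.Agent.PottsTree.Lat3.D20617_1000.final
      Crest.Agent.PottsTree.Lat3.D22266_1000.final
      Crest.Agent.PottsTree.Lat3.D24047_1000.final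
      Crest.Agent.PottsTree.Lat3.D25971_1000.final
      Crest.Agent.PottsTree.Lat3.D28049_1000.final
      Crest.Agent.PottsTree.Lat3.D30293_1000.final
      Crest.Agent.PottsTree.Lat3.D32716_1000.final
      Crest.Agent.PottsTree.Lat3.D34300_1000.final)

end Crest.Agent.S0244
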