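import Crest.Statements.S0359
-- import your own Crest.Agent.* helpers here

set_option autoImplicit false
open MeasureTheory
open scoped ENNReal
open Crest Crest.GeometryTopology

namespace Crest.Agent.S0359

/-- The Clarkson defect of two reals. -/
noncomputable def phi (q u v : ℝ) : ℝ := |u + v| ^ q + |u - v| ^ q - 2 * (|u| ^ q + |v| ^ q)

lemma phi_eq_zero {q u v : ℝ} (hq : q ≠ 0) (h : u * v = 0) : phi q u v = 0 := by
  unfold phi
  rcases mul_eq_zero.mp h with rfl | rfl
  · simp [Real.zero_rpow hq, abs_neg]; ring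
  · simp [Real.zero_rpow hq]; ring

lemma rpow_add_lt_of_lt_one {θ x y : ℝ} (h1 : θ < 1) (hx : 0 < x) (hy : 0 < y) :
    (x + y) ^ θ < x ^ θ + y ^ θ := by
  have hs : 0 < x + y := by positivity
  set a := x / (x + y) with ha
  set b := y / (x + y) with hb
  have ha0 : 0 < a := by positivity
  have hb0 : 0 < b := by positivity
  have hab : a + b = 1 := by rw [ha, hb]; field_simp
  have ha1 : a < 1 := by linarith
  have hb1 : b < 1 := by linarith
  have hxa : x = a * (x + y) := by rw [ha]; field_simp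
  have hya : y = b * (x + y) := by rw [hb]; field_simp
  have h1a : a < a ^ θ := by
    have := Real.rpow_lt_rpow_of_exponent_gt ha0 ha1 h1
    simpa using this
  have h1b : b < b ^ θ := by
    have := Real.rpow_lt_rpow_of_exponent_gt hb0 hb1 h1
    simpa using this
  have hpos : 0 < (x + y) ^ θ := Real.rpow_pos_of_pos hs _
  have e1 : x ^ θ = a ^ θ * (x + y) ^ θ := by
    conv_lhs => rw [hxa]
    exact Real.mul_rpow ha0.le hs.le
  have e2 : y ^ θ = b ^ θ * (x + y) ^ θ := by
    conv_lhs => rw [hya]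
    exact Real.mul_rpow hb0.le hs.le
  rw [e1, e2, ← add_mul]
  have : 1 < a ^ θ + b ^ θ := by linarith
  nlinarith

lemma lt_rpow_add_of_one_lt {θ x y : ℝ} (h1 : 1 < θ) (hx : 0 < x) (hy : 0 < y) :
    x ^ θ + y ^ θ < (x + y) ^ θ := by
  have hs : 0 < x + y := by positivity
  set a := x / (x + y) with ha
  set b := y / (x + y) with hb
  have ha0 : 0 < a := by positivity
  have hb0 : 0 < b := by positivity
  have hab : a + b = 1 := by rw [ha, hb]; field_simp
  have ha1 : a < 1 := by linarith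
  have hb1 : b < 1 := by linarith
  have hxa : x = a * (x + y) := by rw [ha]; field_simp
  have hya : y = b * (x + y) := by rw [hb]; field_simp
  have h1a : a ^ θ < a := by
    have := Real.rpow_lt_rpow_of_exponent_gt ha0 ha1 h1
    simpa using this
  have h1b : b ^ θ < b := by
    have := Real.rpow_lt_rpow_of_exponent_gt hb0 hb1 h1
    simpa using this
  have hpos : 0 < (x + y) ^ θ := Real.rpow_pos_of_pos hs _
  have e1 : x ^ θ = a ^ θ * (x + y) ^ θ := by
    conv_lhs => rw [hxa]
    exact Real.mul_rpow ha0.le hs.le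
  have e2 : y ^ θ = b ^ θ * (x + y) ^ θ := by
    conv_lhs => rw [hya]
    exact Real.mul_rpow hb0.le hs.le
  rw [e1, e2, ← add_mul]
  have : a ^ θ + b ^ θ < 1 := by linarith
  nlinarith

lemma abs_rpow_eq_sq_rpow (q u : ℝ) : |u| ^ q = (u ^ 2) ^ (q / 2) := by
  rw [← sq_abs u, ← Real.rpow_natCast (|u|) 2, ← Real.rpow_mul (abs_nonneg u)]
  congr 1
  push_cast
  ring

lemma parallelogram (u v : ℝ) : (u + v) ^ 2 + (u - v) ^ 2 = 2 * (u ^ 2 + v ^ 2) := by ring

lemma phi_neg {q u v : ℝ} (hq1 : 1 < q) (hq2 : q < 2) (h : u * v ≠ 0) : phi q u v < 0 := by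
  have hu : u ≠ 0 := left_ne_zero_of_mul h
  have hv : v ≠ 0 := right_ne_zero_of_mul h
  have hu2 : 0 < u ^ 2 := by positivity
  have hv2 : 0 < v ^ 2 := by positivity
  set θ := q / 2 with hθ
  have hθ0 : 0 < θ := by rw [hθ]; linarith
  have hθ1 : θ < 1 := by rw [hθ]; linarith
  have hconc := (Real.concaveOn_rpow hθ0.le hθ1.le).2 (Set.mem_Ici.mpr (sq_nonneg (u + v)))
    (Set.mem_Ici.mpr (sq_nonneg (u - v))) (by norm_num : (0 : ℝ) ≤ 1 / 2)
    (by norm_num : (0 : ℝ) ≤ 1 / 2) (by norm_num)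
  simp only [smul_eq_mul] at hconc
  have e : (1 / 2 : ℝ) * (u + v) ^ 2 + 1 / 2 * (u - v) ^ 2 = u ^ 2 + v ^ 2 := by ring
  rw [e] at hconc
  have hsub := rpow_add_lt_of_lt_one hθ1 hu2 hv2
  unfold phi
  rw [abs_rpow_eq_sq_rpow q (u + v), abs_rpow_eq_sq_rpow q (u - v), abs_rpow_eq_sq_rpow q u,
    abs_rpow_eq_sq_rpow q v]
  linarith

lemma phi_pos {q u v : ℝ} (hq2 : 2 < q) (h : u * v ≠ 0) : 0 < phi q u v := by
  have hu : u ≠ 0 := left_ne_zero_of_mul h
  have hv : v ≠ 0 := right_ne_zero_of_mul h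
  have hu2 : 0 < u ^ 2 := by positivity
  have hv2 : 0 < v ^ 2 := by positivity
  set θ := q / 2 with hθ
  have hθ1 : 1 < θ := by rw [hθ]; linarith
  have hconv := (convexOn_rpow hθ1.le).2 (Set.mem_Ici.mpr (sq_nonneg (u + v)))
    (Set.mem_Ici.mpr (sq_nonneg (u - v))) (by norm_num : (0 : ℝ) ≤ 1 / 2)
    (by norm_num : (0 : ℝ) ≤ 1 / 2) (by norm_num)
  simp only [smul_eq_mul] at hconv
  have e : (1 / 2 : ℝ) * (u + v) ^ 2 + 1 / 2 * (u - v) ^ 2 = u ^ 2 + v ^ 2 := by ring
  rw [e] at hconv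
  have hsub := lt_rpow_add_of_one_lt hθ1 hu2 hv2
  unfold phi
  rw [abs_rpow_eq_sq_rpow q (u + v), abs_rpow_eq_sq_rpow q (u - v), abs_rpow_eq_sq_rpow q u,
    abs_rpow_eq_sq_rpow q v]
  linarith

lemma mul_eq_zero_of_sum_phi_eq_zero {ι : Type*} [Fintype ι] {q : ℝ} (hq1 : 1 < q) (hq2 : q ≠ 2)
    (u v : ι → ℝ) (h : ∑ t, phi q (u t) (v t) = 0) (t : ι) : u t * v t = 0 := by
  have hq0 : q ≠ 0 := by linarith
  by_contra hne
  rcases lt_or_gt_of_ne hq2 with hlt | hgt
  · have hle : ∀ s ∈ Finset.univ, phi q (u s) (v s) ≤ 0 := by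
      intro s _
      by_cases hs : u s * v s = 0
      · exact (phi_eq_zero hq0 hs).le
      · exact (phi_neg hq1 hlt hs).le
    have := (Finset.sum_eq_zero_iff_of_nonpos hle).mp h t (Finset.mem_univ t)
    exact absurd this (phi_neg hq1 hlt hne).ne
  · have hle : ∀ s ∈ Finset.univ, 0 ≤ phi q (u s) (v s) := by
      intro s _
      by_cases hs : u s * v s = 0
      · exact (phi_eq_zero hq0 hs).ge
      · exact (phi_pos hgt hs).le
    have := (Finset.sum_eq_zero_iff_of_nonneg hle).mp h t (Finset.mem_univ t)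
    exact absurd this (phi_pos hgt hne).ne'

lemma exists_mul_ne_zero_of_sum_phi_ne_zero {ι : Type*} [Fintype ι] {q : ℝ} (hq0 : q ≠ 0)
    (u v : ι → ℝ) (h : ∑ t, phi q (u t) (v t) ≠ 0) : ∃ t, u t * v t ≠ 0 := by
  by_contra hne
  push Not at hne
  exact h (Finset.sum_eq_zero fun t _ => phi_eq_zero hq0 (hne t))

/-- pointwise midpoint inequality with equality only at antipodes -/
lemma midpoint_ineq {q u v : ℝ} (hq1 : 1 < q) : (|u - v| / 2) ^ q ≤ (|u| ^ q + |v| ^ q) / 2 := by
  have h1 : |u - v| / 2 ≤ (|u| + |v|) / 2 := by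
    have := abs_sub u v
    linarith
  have h2 : (|u - v| / 2) ^ q ≤ ((|u| + |v|) / 2) ^ q :=
    Real.rpow_le_rpow (by positivity) h1 (by linarith)
  have hconv := (convexOn_rpow hq1.le).2 (Set.mem_Ici.mpr (abs_nonneg u))
    (Set.mem_Ici.mpr (abs_nonneg v)) (by norm_num : (0 : ℝ) ≤ 1 / 2)
    (by norm_num : (0 : ℝ) ≤ 1 / 2) (by norm_num)
  simp only [smul_eq_mul] at hconv
  have e : (1 / 2 : ℝ) * |u| + 1 / 2 * |v| = (|u| + |v|) / 2 := by ring
  rw [e] at hconv
  linarith

lemma midpoint_strict {q u v : ℝ} (hq1 : 1 < q) (hne : v ≠ -u) :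
    (|u - v| / 2) ^ q < (|u| ^ q + |v| ^ q) / 2 := by
  have hq0 : q ≠ 0 := by linarith
  by_cases habs : |u| = |v|
  · -- then v = u (since v ≠ -u), and u ≠ 0
    have hvu : v = u := by
      rcases abs_eq_abs.mp habs with h | h
      · exact h.symm
      · exact absurd (by rw [h]; ring) hne
    subst hvu
    have hv0 : v ≠ 0 := by
      intro h0
      apply hne
      simp [h0]
    have : 0 < |v| ^ q := Real.rpow_pos_of_pos (abs_pos.mpr hv0) _
    simp [Real.zero_rpow hq0]
    linarith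
  · have h1 : |u - v| / 2 ≤ (|u| + |v|) / 2 := by
      have := abs_sub u v
      linarith
    have h2 : (|u - v| / 2) ^ q ≤ ((|u| + |v|) / 2) ^ q :=
      Real.rpow_le_rpow (by positivity) h1 (by linarith)
    have hconv := (strictConvexOn_rpow hq1).2 (Set.mem_Ici.mpr (abs_nonneg u))
      (Set.mem_Ici.mpr (abs_nonneg v)) habs (by norm_num : (0 : ℝ) < 1 / 2)
      (by norm_num : (0 : ℝ) < 1 / 2) (by norm_num)
    simp only [smul_eq_mul] at hconv
    have e : (1 / 2 : ℝ) * |u| + 1 / 2 * |v| = (|u| + |v|) / 2 := by ring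
    rw [e] at hconv
    linarith

/-- coordinates: if two vectors have the same `ℓ_q`-mass `R` and their difference has mass
`2^q R` then they are antipodal. -/
lemma antipodal_of_mass {ι : Type*} [Fintype ι] {q R : ℝ} (hq1 : 1 < q) (A B : ι → ℝ)
    (hA : ∑ t, |A t| ^ q = R) (hB : ∑ t, |B t| ^ q = R)
    (hAB : ∑ t, |A t - B t| ^ q = 2 ^ q * R) (t : ι) : B t = - A t := by
  by_contra hne
  have hle : ∀ s ∈ Finset.univ, (|A s - B s| / 2) ^ q ≤ (|A s| ^ q + |B s| ^ q) / 2 :=
    fun s _ => midpoint_ineq hq1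
  have hlt : ∃ s ∈ Finset.univ, (|A s - B s| / 2) ^ q < (|A s| ^ q + |B s| ^ q) / 2 :=
    ⟨t, Finset.mem_univ t, midpoint_strict hq1 hne⟩
  have hsum := Finset.sum_lt_sum hle hlt
  have e1 : ∑ s, (|A s - B s| / 2) ^ q = R := by
    have h2 : (2 : ℝ) ^ q ≠ 0 := (Real.rpow_pos_of_pos (by norm_num) _).ne'
    have : ∀ s, (|A s - B s| / 2) ^ q = |A s - B s| ^ q / 2 ^ q := fun s =>
      Real.div_rpow (abs_nonneg _) (by norm_num) _
    simp_rw [this]
    rw [← Finset.sum_div, hAB]
    field_simp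
  have e2 : ∑ s, (|A s| ^ q + |B s| ^ q) / 2 = R := by
    rw [← Finset.sum_div, Finset.sum_add_distrib, hA, hB]
    ring
  rw [e1, e2] at hsum
  exact lt_irrefl _ hsum

section Source

variable {α : Type} [MeasurableSpace α] [Fintype α] [DiscreteMeasurableSpace α]
variable (p : ℝ≥0∞)

/-- A function on a finite discrete space as an element of `L^p(count)`. -/
noncomputable def L (f : α → ℝ) : Lp ℝ p (Measure.count : Measure α) :=
  (MemLp.of_discrete : MemLp f p (Measure.count : Measure α)).toLp f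

lemma L_add (f g : α → ℝ) : L p (f + g) = L p f + L p g := rfl

lemma L_neg (f : α → ℝ) : L p (-f) = - L p f := rfl

lemma L_sub (f g : α → ℝ) : L p (f - g) = L p f - L p g := rfl

lemma L_zero : L p (0 : α → ℝ) = 0 := rfl

lemma norm_L_rpow (hp0 : p ≠ 0) (hptop : p ≠ ⊤) (f : α → ℝ) :
    ‖L p f‖ ^ p.toReal = ∑ a, |f a| ^ p.toReal := by
  have hq : 0 < p.toReal := ENNReal.toReal_pos hp0 hptop
  unfold L
  rw [Lp.norm_toLp, eLpNorm_eq_lintegral_rpow_enorm_toReal hp0 hptop, lintegral_count, tsum_fintype,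
    ENNReal.toReal_rpow, ← ENNReal.rpow_mul, one_div, inv_mul_cancel₀ hq.ne', ENNReal.rpow_one,
    ENNReal.toReal_sum]
  · refine Finset.sum_congr rfl fun a _ => ?_
    rw [Real.enorm_eq_ofReal_abs, ENNReal.ofReal_rpow_of_nonneg (abs_nonneg _) hq.le,
      ENNReal.toReal_ofReal (by positivity)]
  · intro a _
    rw [Real.enorm_eq_ofReal_abs, ENNReal.ofReal_rpow_of_nonneg (abs_nonneg _) hq.le]
    exact ENNReal.ofReal_ne_top

end Source

section Target

variable {p : ℝ≥0∞} [Fact (1 ≤ p)] {d : ℕ}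

lemma norm_target_rpow (hp0 : p ≠ 0) (hptop : p ≠ ⊤) (f : PiLp p (fun _ : Fin d => ℝ)) :
    ‖f‖ ^ p.toReal = ∑ t, |f t| ^ p.toReal := by
  have hq : 0 < p.toReal := ENNReal.toReal_pos hp0 hptop
  rw [PiLp.norm_eq_sum hq, ← Real.rpow_mul (by positivity), one_div, inv_mul_cancel₀ hq.ne',
    Real.rpow_one]
  simp

end Target

/-- grid rows -/
noncomputable def rowf {k : ℕ} (i : Fin k) : Fin k × Fin k → ℝ := fun a => if a.1 = i then 1 else 0

/-- grid columns -/
noncomputable def colf {k : ℕ} (j : Fin k) : Fin k × Fin k → ℝ := fun a => if a.2 = j then 1 else 0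

theorem result
    (p : ℝ≥0∞) [Fact (1 ≤ p)] (hp1 : 1 < p) (hptop : p ≠ ⊤) (hp2 : p ≠ 2)
    (n : ℕ) (hn : 9 ≤ n) (d : ℕ)
    (hd : ∀ (α : Type) [MeasurableSpace α] (μ : Measure α) (x : Fin n → Lp ℝ p μ),
      Function.Injective x →
      ∃ (y : Fin n → PiLp p (fun _ : Fin d => ℝ)) (s : ℝ), 0 < s ∧
        ∀ i j, ‖y i - y j‖ = s * ‖x i - x j‖) :
    ((n - 1) / 4) ^ 2 ≤ d := by
  classical
  set k := (n - 1) / 4 with hk
  have hkn : 4 * k + 1 ≤ n := by omega
  have hk0 : 0 < k := by omega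
  have hp0 : p ≠ 0 := by
    intro h
    rw [h] at hp1
    exact not_lt_bot hp1
  set q := p.toReal with hq
  have hq1 : 1 < q := by
    have := (ENNReal.toReal_lt_toReal ENNReal.one_ne_top hptop).mpr hp1
    simpa using this
  have hq0 : q ≠ 0 := by linarith
  have hqpos : 0 < q := by linarith
  have hq2 : q ≠ 2 := by
    intro h
    apply hp2
    have : p = ENNReal.ofReal q := (ENNReal.ofReal_toReal hptop).symm
    rw [this, h]
    simp
  -- the source space
  let μ : Measure (Fin k × Fin k) := Measure.count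
  let LL : (Fin k × Fin k → ℝ) → Lp ℝ p μ := fun f => L p f
  have hLadd : ∀ f g, LL (f + g) = LL f + LL g := fun f g => rfl
  have hLneg : ∀ f, LL (-f) = - LL f := fun f => rfl
  have hLsub : ∀ f g, LL (f - g) = LL f - LL g := fun f g => rfl
  have hLnorm : ∀ f, ‖LL f‖ ^ q = ∑ a, |f a| ^ q := fun f => norm_L_rpow p hp0 hptop f
  -- a nonzero vector, hence an infinite space
  let i0 : Fin k := ⟨0, hk0⟩
  have hnz : LL (rowf i0) ≠ 0 := by
    intro h
    have h1 := hLnorm (rowf i0)
    rw [h] at h1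
    rw [norm_zero, Real.zero_rpow hq0] at h1
    have h2 : (0 : ℝ) < ∑ a, |rowf i0 a| ^ q := by
      apply Finset.sum_pos'
      · intro a _
        positivity
      · refine ⟨(i0, i0), Finset.mem_univ _, ?_⟩
        simp [rowf]
    linarith
  haveI : Infinite (Lp ℝ p μ) :=
    Infinite.of_injective (fun c : ℝ => c • LL (rowf i0)) (smul_left_injective ℝ hnz)
  -- the finite set of points
  let S : Finset (Lp ℝ p μ) := insert 0 (Finset.univ.image (fun i => LL (rowf i)) ∪
    Finset.univ.image (fun i => LL (-rowf i)) ∪ Finset.univ.image (fun j => LL (colf j)) ∪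
    Finset.univ.image (fun j => LL (-colf j)))
  have hScard : S.card ≤ n := by
    have h1 : ∀ g : Fin k → Lp ℝ p μ, (Finset.univ.image g).card ≤ k := by
      intro g
      simpa using (Finset.card_image_le (s := (Finset.univ : Finset (Fin k))) (f := g))
    have h2 := Finset.card_insert_le (0 : Lp ℝ p μ) (Finset.univ.image (fun i => LL (rowf i)) ∪
      Finset.univ.image (fun i => LL (-rowf i)) ∪ Finset.univ.image (fun j => LL (colf j)) ∪
      Finset.univ.image (fun j => LL (-colf j)))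
    have h3 := Finset.card_union_le (Finset.univ.image (fun i => LL (rowf i)) ∪
      Finset.univ.image (fun i => LL (-rowf i)) ∪ Finset.univ.image (fun j => LL (colf j)))
      (Finset.univ.image (fun j => LL (-colf j)))
    have h4 := Finset.card_union_le (Finset.univ.image (fun i => LL (rowf i)) ∪
      Finset.univ.image (fun i => LL (-rowf i))) (Finset.univ.image (fun j => LL (colf j)))
    have h5 := Finset.card_union_le (Finset.univ.image (fun i => LL (rowf i)))
      (Finset.univ.image (fun i => LL (-rowf i)))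
    have a1 := h1 (fun i => LL (rowf i))
    have a2 := h1 (fun i => LL (-rowf i))
    have a3 := h1 (fun j => LL (colf j))
    have a4 := h1 (fun j => LL (-colf j))
    show (insert 0 _ : Finset _).card ≤ n
    omega
  obtain ⟨t, hSt, htcard⟩ := Infinite.exists_superset_card_eq S n hScard
  let e : t ≃ Fin n := Finset.equivFinOfCardEq htcard
  let x : Fin n → Lp ℝ p μ := fun i => (e.symm i : Lp ℝ p μ)
  have hxinj : Function.Injective x := by
    intro a b hab
    exact e.symm.injective (Subtype.ext hab)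
  obtain ⟨y, s, hs, hy⟩ := hd (Fin k × Fin k) μ x hxinj
  have hsq : 0 < s ^ q := Real.rpow_pos_of_pos hs _
  -- the map on points of `t`
  let Y0 : Lp ℝ p μ → PiLp p (fun _ : Fin d => ℝ) := fun v => if h : v ∈ t then y (e ⟨v, h⟩) else 0
  have hY0 : ∀ v ∈ t, ∀ w ∈ t, ‖Y0 v - Y0 w‖ = s * ‖v - w‖ := by
    intro v hv w hw
    have := hy (e ⟨v, hv⟩) (e ⟨w, hw⟩)
    simpa [Y0, hv, hw, x] using this
  have h0t : (0 : Lp ℝ p μ) ∈ t := hSt (Finset.mem_insert_self _ _)
  let Y : Lp ℝ p μ → PiLp p (fun _ : Fin d => ℝ) := fun v => Y0 v - Y0 0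
  have hY0' : Y 0 = 0 := sub_self _
  have hY : ∀ v ∈ t, ∀ w ∈ t, ‖Y v - Y w‖ = s * ‖v - w‖ := by
    intro v hv w hw
    have : Y v - Y w = Y0 v - Y0 w := by
      simp only [Y]
      abel
    rw [this]
    exact hY0 v hv w hw
  have hYn : ∀ v ∈ t, ‖Y v‖ = s * ‖v‖ := by
    intro v hv
    have := hY v hv 0 h0t
    rwa [hY0', sub_zero, sub_zero] at this
  have hmass : ∀ v ∈ t, ∑ c, |(Y v) c| ^ q = s ^ q * ‖v‖ ^ q := by
    intro v hv
    rw [← norm_target_rpow hp0 hptop (Y v), hYn v hv, Real.mul_rpow hs.le (norm_nonneg _)]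
  have hmass2 : ∀ v ∈ t, ∀ w ∈ t, ∑ c, |(Y v) c - (Y w) c| ^ q = s ^ q * ‖v - w‖ ^ q := by
    intro v hv w hw
    have h := norm_target_rpow hp0 hptop (Y v - Y w)
    rw [hY v hv w hw, Real.mul_rpow hs.le (norm_nonneg _)] at h
    rw [h]
    rfl
  -- antipodality
  have hanti : ∀ v, v ∈ t → -v ∈ t → ∀ c, (Y (-v)) c = - (Y v) c := by
    intro v hv hmv c
    refine antipodal_of_mass (R := s ^ q * ‖v‖ ^ q) hq1 (fun c => (Y v) c) (fun c => (Y (-v)) c)
      (hmass v hv) ?_ ?_ c
    · rw [hmass (-v) hmv, norm_neg]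
    · rw [hmass2 v hv (-v) hmv, sub_neg_eq_add, ← two_smul ℝ v, norm_smul,
        Real.mul_rpow (norm_nonneg _) (norm_nonneg _), Real.norm_eq_abs, abs_two]
      ring
  -- Clarkson transfer
  have htransfer : ∀ f g : Fin k × Fin k → ℝ, LL f ∈ t → LL g ∈ t → LL (-g) ∈ t →
      ∑ c, phi q ((Y (LL f)) c) ((Y (LL g)) c) = s ^ q * ∑ a, phi q (f a) (g a) := by
    intro f g hf hg hmg
    have hneg : ∀ c, (Y (LL (-g))) c = - (Y (LL g)) c := by
      rw [hLneg] at hmg ⊢
      exact hanti _ hg hmg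
    have e1 : ∑ c, |(Y (LL f)) c + (Y (LL g)) c| ^ q = s ^ q * ∑ a, |f a + g a| ^ q := by
      have := hmass2 _ hf _ hmg
      simp only [hneg, sub_neg_eq_add] at this
      rw [this, hLneg, sub_neg_eq_add, ← hLadd, hLnorm]
      rfl
    have e2 : ∑ c, |(Y (LL f)) c - (Y (LL g)) c| ^ q = s ^ q * ∑ a, |f a - g a| ^ q := by
      rw [hmass2 _ hf _ hg, ← hLsub, hLnorm]
      rfl
    have e3 : ∑ c, |(Y (LL f)) c| ^ q = s ^ q * ∑ a, |f a| ^ q := by
      rw [hmass _ hf, hLnorm]
    have e4 : ∑ c, |(Y (LL g)) c| ^ q = s ^ q * ∑ a, |g a| ^ q := by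
      rw [hmass _ hg, hLnorm]
    unfold phi
    simp only [Finset.sum_sub_distrib, Finset.sum_add_distrib, ← Finset.mul_sum]
    rw [e1, e2, e3, e4]
    ring
  -- membership
  have hrow : ∀ i, LL (rowf i) ∈ t := fun i => hSt (by
    apply Finset.mem_insert_of_mem
    simp only [Finset.mem_union, Finset.mem_image, Finset.mem_univ, true_and]
    exact Or.inl (Or.inl (Or.inl ⟨i, rfl⟩)))
  have hrow' : ∀ i, LL (-rowf i) ∈ t := fun i => hSt (by
    apply Finset.mem_insert_of_mem
    simp only [Finset.mem_union, Finset.mem_image, Finset.mem_univ, true_and]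
    exact Or.inl (Or.inl (Or.inr ⟨i, rfl⟩)))
  have hcol : ∀ i, LL (colf i) ∈ t := fun i => hSt (by
    apply Finset.mem_insert_of_mem
    simp only [Finset.mem_union, Finset.mem_image, Finset.mem_univ, true_and]
    exact Or.inl (Or.inr ⟨i, rfl⟩))
  have hcol' : ∀ i, LL (-colf i) ∈ t := fun i => hSt (by
    apply Finset.mem_insert_of_mem
    simp only [Finset.mem_union, Finset.mem_image, Finset.mem_univ, true_and]
    exact Or.inr ⟨i, rfl⟩)
  -- disjointness of rows and of columns in the target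
  have hrowdisj : ∀ i i', i ≠ i' → ∀ c, (Y (LL (rowf i))) c * (Y (LL (rowf i'))) c = 0 := by
    intro i i' hii c
    refine mul_eq_zero_of_sum_phi_eq_zero hq1 hq2 (fun c => (Y (LL (rowf i))) c)
      (fun c => (Y (LL (rowf i'))) c) ?_ c
    rw [htransfer _ _ (hrow i) (hrow i') (hrow' i')]
    have : ∑ a, phi q (rowf i a) (rowf i' a) = 0 := by
      refine Finset.sum_eq_zero fun a _ => phi_eq_zero hq0 ?_
      simp only [rowf]
      split_ifs with h1 h2
      · exact absurd (h1.symm.trans h2) hii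
      · simp
      · simp
      · simp
    rw [this, mul_zero]
  have hcoldisj : ∀ j j', j ≠ j' → ∀ c, (Y (LL (colf j))) c * (Y (LL (colf j'))) c = 0 := by
    intro i i' hii c
    refine mul_eq_zero_of_sum_phi_eq_zero hq1 hq2 (fun c => (Y (LL (colf i))) c)
      (fun c => (Y (LL (colf i'))) c) ?_ c
    rw [htransfer _ _ (hcol i) (hcol i') (hcol' i')]
    have : ∑ a, phi q (colf i a) (colf i' a) = 0 := by
      refine Finset.sum_eq_zero fun a _ => phi_eq_zero hq0 ?_
      simp only [colf]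
      split_ifs with h1 h2
      · exact absurd (h1.symm.trans h2) hii
      · simp
      · simp
      · simp
    rw [this, mul_zero]
  -- rows and columns meet in the target
  have hphi11 : phi q 1 1 ≠ 0 := by
    unfold phi
    have h2q : (2 : ℝ) ^ q ≠ 4 := by
      intro h
      have h4 : (4 : ℝ) = 2 ^ (2 : ℝ) := by norm_num
      rw [h4] at h
      have := (Real.rpow_right_inj (by norm_num : (0 : ℝ) < 2) (by norm_num : (2 : ℝ) ≠ 1)).mp h
      exact hq2 this
    simp only [sub_self, abs_zero, abs_one, Real.zero_rpow hq0, Real.one_rpow]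
    have : |(1 : ℝ) + 1| = 2 := by norm_num
    rw [this]
    intro h
    apply h2q
    linarith
  have hmeet : ∀ i j, ∃ c, (Y (LL (rowf i))) c * (Y (LL (colf j))) c ≠ 0 := by
    intro i j
    refine exists_mul_ne_zero_of_sum_phi_ne_zero hq0 (fun c => (Y (LL (rowf i))) c)
      (fun c => (Y (LL (colf j))) c) ?_
    rw [htransfer _ _ (hrow i) (hcol j) (hcol' j)]
    have : ∑ a, phi q (rowf i a) (colf j a) = phi q 1 1 := by
      rw [Finset.sum_eq_single (i, j)]
      · simp [rowf, colf]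
      · intro b _ hb
        refine phi_eq_zero hq0 ?_
        simp only [rowf, colf]
        split_ifs with h1 h2
        · exact absurd (Prod.ext h1 h2) hb
        · simp
        · simp
        · simp
      · simp
    rw [this]
    exact mul_ne_zero hsq.ne' hphi11
  choose τ hτ using hmeet
  have hτinj : Function.Injective (fun a : Fin k × Fin k => τ a.1 a.2) := by
    rintro ⟨i, j⟩ ⟨i', j'⟩ h
    simp only at h
    have hi : i = i' := by
      by_contra hne
      have h0 := hrowdisj i i' hne (τ i j)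
      have h1 := hτ i j
      have h2 := hτ i' j'
      rw [← h] at h2
      have h3 : (Y (LL (rowf i))) (τ i j) ≠ 0 := left_ne_zero_of_mul h1
      have h4 : (Y (LL (rowf i'))) (τ i j) ≠ 0 := left_ne_zero_of_mul h2
      exact (mul_ne_zero h3 h4) h0
    have hj : j = j' := by
      by_contra hne
      have h0 := hcoldisj j j' hne (τ i j)
      have h1 := hτ i j
      have h2 := hτ i' j'
      rw [← h] at h2
      have h3 : (Y (LL (colf j))) (τ i j) ≠ 0 := right_ne_zero_of_mul h1
      have h4 : (Y (LL (colf j'))) (τ i j) ≠ 0 := right_ne_zero_of_mul h2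
      exact (mul_ne_zero h3 h4) h0
    rw [hi, hj]
  have hcard := Fintype.card_le_of_injective _ hτinj
  simp only [Fintype.card_prod, Fintype.card_fin] at hcard
  calc k ^ 2 = k * k := by ring
    _ ≤ d := hcard

end Crest.Agent.S0359
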